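import Mathlib

/-!
Cyclotomic characters of prime power order which take values of large order at given
integers.
-/

namespace Vale.Agent.P022.H384

open Finset

/-- The sum `1 + u + ... + u ^ (l - 1)` for `u` a power of `l`-power exponent has a prime
divisor different from `l`. -/
theorem exists_prime_dvd_sum {l : ℕ} (hl : l.Prime) {p : ℕ} (hp : 2 ≤ p) {A : ℕ} (hA : 1 ≤ A) :
    ∃ q : ℕ, q.Prime ∧ q ≠ l ∧ q ∣ ∑ i ∈ range l, (p ^ l ^ A) ^ i := by
  set u := p ^ l ^ A with hu
  set S := ∑ i ∈ range l, u ^ i with hS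
  have hu2 : 2 ≤ u := le_trans hp (Nat.le_self_pow (pow_ne_zero _ hl.ne_zero) p)
  have hSl : l < S := by
    have h1 : ∑ i ∈ range l, 1 < S := by
      apply Finset.sum_lt_sum
      · intro i _
        exact Nat.one_le_pow _ _ (by omega)
      · exact ⟨1, Finset.mem_range.mpr hl.one_lt, by rw [pow_one]; omega⟩
    simpa using h1
  by_contra hcon
  push Not at hcon
  have hpow : S = l ^ S.primeFactorsList.length := by
    apply Nat.eq_prime_pow_of_unique_prime_dvd (by omega)
    intro d hd hdS
    by_contra hne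
    exact hcon d hd hne hdS
  set k := S.primeFactorsList.length with hk
  have hk2 : 2 ≤ k := by
    by_contra h
    have h1 : k ≤ 1 := by omega
    have h2 : S ≤ l := by
      rw [hpow]
      calc l ^ k ≤ l ^ 1 := Nat.pow_le_pow_right hl.pos h1
        _ = l := pow_one l
    omega
  have hl2 : l ^ 2 ∣ S := by
    rw [hpow]
    exact pow_dvd_pow l hk2
  have hlS : l ∣ S := dvd_trans (dvd_pow_self l two_ne_zero) hl2
  rcases hl.eq_two_or_odd' with h2 | hodd
  · subst h2
    have h3 : S = 1 + u := by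
      rw [hS, Finset.sum_range_succ, Finset.sum_range_one, pow_zero, pow_one]
    obtain ⟨B, rfl⟩ : ∃ B, A = B + 1 := ⟨A - 1, by omega⟩
    have h4 : u = (p ^ 2 ^ B) ^ 2 := by
      rw [hu, ← pow_mul, pow_succ]
    rw [h3, h4] at hl2
    set y := p ^ 2 ^ B
    have h5 : y % 4 = 0 ∨ y % 4 = 1 ∨ y % 4 = 2 ∨ y % 4 = 3 := by omega
    have h6 : (1 + y ^ 2) % 4 = 0 := by
      have := Nat.mod_eq_zero_of_dvd hl2
      simpa using this
    rcases h5 with h5 | h5 | h5 | h5 <;> norm_num [Nat.add_mod, Nat.pow_mod, h5] at h6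
  · haveI : Fact l.Prime := ⟨hl⟩
    -- `u ≡ 1 mod l`
    have h3 : ((u : ℕ) : ZMod l) = 1 := by
      have h4 : ((S : ℕ) : ZMod l) = 0 := (ZMod.natCast_eq_zero_iff S l).mpr hlS
      have h5 : (u : ZMod l) ^ l - 1 = 0 := by
        rw [← geom_sum_mul (u : ZMod l) l]
        have h6 : (∑ i ∈ range l, (u : ZMod l) ^ i) = 0 := by
          rw [← h4, hS]
          push_cast
          rfl
        rw [h6, zero_mul]
      rw [ZMod.pow_card, sub_eq_zero] at h5
      exact h5
    have h4 : l ∣ u - 1 := by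
      rw [← ZMod.natCast_eq_zero_iff, Nat.cast_sub (by omega), h3]
      simp
    obtain ⟨t, ht⟩ := h4
    have hut : (u : ℤ) = 1 + l * t := by
      have : u = 1 + l * t := by omega
      rw [this]
      push_cast
      ring
    have key : ∀ i : ℕ, ∃ c : ℤ, (u : ℤ) ^ i = 1 + i * (l * t) + (l : ℤ) ^ 2 * c := by
      intro i
      induction i with
      | zero => exact ⟨0, by simp⟩
      | succ i ih =>
        obtain ⟨c, hc⟩ := ih
        refine ⟨c + i * t ^ 2 + l * t * c, ?_⟩
        rw [pow_succ, hc, hut]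
        push_cast
        ring
    choose c hc using key
    obtain ⟨m, hm⟩ := hodd
    have hsum : (S : ℤ) = l + (l : ℤ) ^ 2 * (t * m) + (l : ℤ) ^ 2 * ∑ i ∈ range l, c i := by
      rw [hS]
      push_cast
      rw [Finset.sum_congr rfl (fun i _ => hc i), Finset.sum_add_distrib, Finset.sum_add_distrib,
        ← Finset.mul_sum, ← Finset.sum_mul]
      have h7 : (∑ i ∈ range l, (i : ℤ)) = l * m := by
        have h8 := Finset.sum_range_id_mul_two l
        have h9 : (∑ i ∈ range l, i) * 2 = (l * m) * 2 := by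
          rw [h8]
          have : l - 1 = 2 * m := by omega
          rw [this]; ring
        have h10 : (∑ i ∈ range l, i) = l * m := by omega
        have h11 := congrArg (Nat.cast : ℕ → ℤ) h10
        push_cast at h11
        exact h11
      rw [h7]
      simp only [Finset.sum_const, Finset.card_range, nsmul_eq_mul, mul_one]
      ring
    have h12 : ((l : ℤ) ^ 2) ∣ l := by
      have h13 : ((l : ℤ) ^ 2) ∣ (S : ℤ) := by exact_mod_cast hl2
      have h14 : ((l : ℤ) ^ 2) ∣ (l : ℤ) ^ 2 * (t * m) + (l : ℤ) ^ 2 * ∑ i ∈ range l, c i :=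
        dvd_add (dvd_mul_right _ _) (dvd_mul_right _ _)
      rw [hsum, add_assoc] at h13
      exact (dvd_add_left h14).mp h13
    have h15 : l ^ 2 ∣ l := by exact_mod_cast h12
    have h16 := Nat.le_of_dvd hl.pos h15
    nlinarith [hl.two_le]

/-- There are primes modulo which a given integer has order a given large power of `l`. -/
theorem exists_prime_orderOf {l : ℕ} (hl : l.Prime) {p : ℕ} (hp : 2 ≤ p) {A : ℕ} (hA : 1 ≤ A) :
    ∃ q : ℕ, q.Prime ∧ l ^ (A + 1) < q ∧ ∃ h : p.Coprime q,
      orderOf (ZMod.unitOfCoprime p h) = l ^ (A + 1) := by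
  obtain ⟨q, hq, hql, hqS⟩ := exists_prime_dvd_sum hl hp hA
  have : Fact q.Prime := ⟨hq⟩
  set u := p ^ l ^ A with hu
  have h1 : (∑ i ∈ range l, ((p : ZMod q) ^ l ^ A) ^ i) = 0 := by
    have := (ZMod.natCast_eq_zero_iff _ q).mpr hqS
    rw [← this, hu]
    push_cast
    rfl
  have h2 : (p : ZMod q) ^ l ^ (A + 1) = 1 := by
    have := geom_sum_mul ((p : ZMod q) ^ l ^ A) l
    rw [h1, zero_mul] at this
    rw [pow_succ, pow_mul, ← sub_eq_zero, ← this]
  have h3 : (p : ZMod q) ^ l ^ A ≠ 1 := by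
    intro h
    rw [h] at h1
    simp only [one_pow, Finset.sum_const, Finset.card_range, nsmul_eq_mul, mul_one] at h1
    have h4 : q ∣ l := (ZMod.natCast_eq_zero_iff l q).mp h1
    exact hql ((Nat.prime_dvd_prime_iff_eq hq hl).mp h4)
  have hcop : p.Coprime q := by
    rw [Nat.coprime_comm, hq.coprime_iff_not_dvd]
    intro hdvd
    have h5 : (p : ZMod q) = 0 := (ZMod.natCast_eq_zero_iff p q).mpr hdvd
    rw [h5, zero_pow (pow_ne_zero _ hl.ne_zero)] at h2
    exact zero_ne_one h2
  have : Fact l.Prime := ⟨hl⟩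
  have hord : orderOf (ZMod.unitOfCoprime p hcop) = l ^ (A + 1) := by
    apply orderOf_eq_prime_pow
    · intro h
      apply h3
      have := congrArg (Units.val) h
      simpa using this
    · ext
      simpa using h2
  refine ⟨q, hq, ?_, hcop, hord⟩
  have h6 : l ^ (A + 1) ∣ q - 1 := by
    rw [← hord, ← ZMod.card_units q]
    exact orderOf_dvd_card
  have h7 := Nat.le_of_dvd (by have := hq.two_le; omega) h6
  have := hq.two_le
  omega

end Vale.Agent.P022.H384
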